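import Vale.Agent.P248.H937.Near
import Vale.Agent.P254.S.H151.Top
import Vale.Agent.P254.S.H929.Cert

/-!
P248: near-sharp bound for the volume product of all convex bodies, loss `2/25` per dimension.
-/

open MeasureTheory Set

namespace Vale.Agent.P248.H937

theorem near25 {n : ℕ} {K : Set (EuclideanSpace ℝ (Fin n))} (hK : Vale.Agent.P248.IsConvexBody K) :
    ENNReal.ofReal (Real.exp (-(2 / 25 * ((n : ℝ) + 1))) *
      (((n : ℝ) + 1) ^ (n + 1) / (n.factorial : ℝ) ^ 2)) ≤ Vale.Agent.P248.volumeProduct K := by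
  have h1 := near_sharp_of (δ := 1 / 25) (fun n =>
    Vale.Agent.P254.S151.niceDDL_of_cert Vale.Agent.P254.S929.cert (by norm_num) n) hK
  have e : (2 * (1 / 25) * ((n : ℝ) + 1) : ℝ) = 2 / 25 * ((n : ℝ) + 1) := by ring
  rwa [e] at h1

end Vale.Agent.P248.H937
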