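import Vale.Agent.P248.Bdl.B2
import Vale.Agent.P254.Bdl.B19

/-!
P248: near-sharp bound for the volume product of all convex bodies from `NiceDDL δ`.
-/

open MeasureTheory Set

namespace Vale.Agent.P248.H937

theorem near_sharp_of {δ : ℝ} (hN : ∀ n : ℕ, Vale.Agent.P254.X.Loss.NiceDDL δ n) {n : ℕ}
    {K : Set (EuclideanSpace ℝ (Fin n))} (hK : Vale.Agent.P248.IsConvexBody K) :
    ENNReal.ofReal (Real.exp (-(2 * δ * ((n : ℝ) + 1))) *
      (((n : ℝ) + 1) ^ (n + 1) / (n.factorial : ℝ) ^ 2)) ≤ Vale.Agent.P248.volumeProduct K :=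
  NS.T10.volumeProduct_ge
    (fun _ hK _ hz => NS.T10.body_of (NS.Asm541.stmtMain_of NS.T2.stmtLoss) NS.T9.stmtCone
      (hN (n + 1)) hK hz) hK

end Vale.Agent.P248.H937
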